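import Vale.Agent.P325.H111.K2.Final

/-!
# NP-hardness of Unique Games over two labels near completeness one, for every constant factor

For every real `C` there is `ε₀ > 0` such that for all `0 < ε ≤ ε₀` it is NP-hard to distinguish
Unique Games instances over two labels of value at least `1 - ε` from those of value at most
`1 - C ε`.
-/

theorem Vale.Agent.Results.P325.EveryConstantFactor.result : ∀ C : ℝ, ∃ ε₀ : ℝ, 0 < ε₀ ∧
    ∀ ε : ℝ, 0 < ε → ε ≤ ε₀ → Vale.Agent.P325.UGHardOver 2 (1 - ε) (1 - C * ε) :=
  Vale.Agent.P325.K2.every_constant
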