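import Vale.Agent.P325.H844.Pad
import Vale.Agent.P325.H844.CubeNo

/-!
# NP-hardness of Unique Games near completeness one with a factor close to `10 / 3`

For all `0 < ε ≤ 1 / 8` and all `C < 10 / 3` it is NP-hard to distinguish Unique Games instances
(over some fixed alphabet) of value at least `1 - ε` from those of value at most `1 - C ε`.
-/

theorem Vale.Agent.Results.P325.NearOneFactor.result : ∀ ε C : ℝ, 0 < ε → ε ≤ 1 / 8 → C < 10 / 3 →
    Vale.Agent.P325.UGHard (1 - ε) (1 - C * ε) := by
  intro ε C h0 h1 hC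
  obtain ⟨η, hη0, hη1, hη2⟩ : ∃ η : ℝ, 0 < η ∧ η < ε ∧ 13 / 3 * η ≤ (10 / 3 - C) * ε := by
    have h2 : 0 < (10 / 3 - C) * ε := mul_pos (by linarith) h0
    refine ⟨min (ε / 2) (3 / 13 * ((10 / 3 - C) * ε)), by positivity, ?_, ?_⟩
    · exact lt_of_le_of_lt (min_le_left _ _) (by linarith)
    · have := min_le_right (ε / 2) (3 / 13 * ((10 / 3 - C) * ε))
      linarith
  have h3 := Vale.Agent.P325.H844.hard_pad Vale.Agent.P325.H844.Cube.cube
    (by show 1 ≤ 3; norm_num)
    (by
      rw [← List.length_pos_iff, Vale.Agent.P325.H844.Cube.length_cube]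
      norm_num)
    (7 / 8) (7 / 12) (by norm_num) (by norm_num) Vale.Agent.P325.H844.Cube.cube_yes
    Vale.Agent.P325.H844.Cube.cube_no (8 * (ε - η)) η (by linarith) (by linarith) hη0
    (by linarith)
  exact h3.mono (by linarith) (by linarith)
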