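import Vale.Agent.P325.H111.Star

/-!
# NP-hardness of Unique Games with completeness above one half

For all `r ≥ 1` and `η > 0` there is an alphabet size `K` such that it is NP-hard to distinguish
Unique Games instances over `K` labels of value at least `1 / 2 + 2 ^ (-(r + 1)) - η` from those of
value at most `4 ^ (-r) + η`.
-/

theorem Vale.Agent.Results.P325.StarHardness.result : ∀ (r : ℕ) (η : ℝ), 1 ≤ r → 0 < η →
    Vale.Agent.P325.UGHard (1 / 2 + (1 / 2) ^ (r + 1) - η) ((1 / 4) ^ r + η) :=
  fun r η hr hη => Vale.Agent.P325.H111.star_hard r hr η hη
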